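import Vale.Agent.P313.AC.FDef

/-!
`BPL` is in logspace-uniform `AC^1`, module F7: the invariant holds at all times.
-/

namespace Vale.Agent.P313.AC.H535

open Finset

theorem N_le_U (p : Pr) : p.N ≤ p.U := by
  have h2 : 0 < p.C := Nat.succ_pos _
  exact Nat.le_mul_of_pos_right _ h2

theorem prc_le {b tm l t i j : ℕ} (ho : okp b l t i j) (ht : t ≤ tm) :
    prc b l t i j ≤ tm + 3 := by
  unfold okp at ho
  unfold prc
  omega

section

variable {D : Dat} (hD : D.Ok) (n : ℕ)

include hD

/-- The universe is not empty. -/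
theorem one_le_U : 1 ≤ (D.p n).U := by
  have h1 : 0 < (D.p n).N := by rw [(hD.good n).hN]; positivity
  have h2 : 0 < (D.p n).C := Nat.succ_pos _
  exact Nat.mul_pos h1 h2

theorem P_lt : (D.p n).P < (n + 2) ^ D.e := by
  have h1 := (hD.good n).hV
  have h2 := hD.goodF.hV n
  omega

theorem U_lt : (D.p n).U < (n + 2) ^ D.e :=
  (hD.good n).hU.trans (P_lt hD n)

theorem N_lt : (D.p n).N < (n + 2) ^ D.e :=
  (N_le_U _).trans_lt (U_lt hD n)

theorem two_lt : 2 < (n + 2) ^ D.e :=
  (hD.good n).hP.two_le.trans_lt (P_lt hD n)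

theorem four_lt : 4 < (n + 2) ^ D.e := by
  have h1 := (hD.good n).hV
  have h2 := hD.goodF.hV n
  have h3 := (hD.good n).hP.two_le
  have h4 : 1 ≤ (D.p n).Q := by
    have := (hD.good n).hQ2
    have h5 : 0 < (D.p n).N := by rw [(hD.good n).hN]; positivity
    have h6 : 0 < 2 * (2 ^ (D.p n).b) ^ (D.p n).tm * (2 ^ (D.p n).g0 * (D.p n).N) := by positivity
    omega
  omega

theorem Lt_lt : (D.p n).L + (D.p n).tm < (n + 2) ^ D.e := by
  calc (D.p n).L + (D.p n).tm ≤ D.e * lam n := hD.goodF.hL n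
    _ < 2 ^ (D.e * lam n) := Nat.lt_two_pow_self
    _ = (2 ^ lam n) ^ D.e := by rw [mul_comm, pow_mul]
    _ ≤ (n + 2) ^ D.e := Nat.pow_le_pow_left (Nat.pow_log_le_self 2 (by omega)) _

theorem sq_le : (D.p n).P ^ 2 ≤ (n + 2) ^ D.e := by
  have h1 : (D.p n).P ^ 2 ≤ (D.p n).P ^ 2 * 8 ^ (D.p n).τ :=
    Nat.le_mul_of_pos_right _ (by positivity)
  have h2 : (D.p n).P ^ 2 * 8 ^ (D.p n).τ ≤ ((D.p n).P ^ 2 * 8 ^ (D.p n).τ) ^ 40 :=
    Nat.le_self_pow (by norm_num) _
  exact (h1.trans h2).trans (hD.goodF.hR n)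

theorem gKb_le {m : ℕ} (hm : m ≤ (D.p n).tm + 3) : gKb D n m ≤ (D.p n).P := by
  refine le_trans ?_ (hD.good n).hK
  unfold gKb gB
  exact Nat.pow_le_pow_right (by positivity) (by omega)

/-- The height and the number of a node of a tree are small. -/
theorem node_lt {w s a : ℕ} (h : (w + 1) * (D.p n).f ^ s ≤ a) : s < a ∧ w < a := by
  have hf := (hD.good n).f2
  have h1 : s < (D.p n).f ^ s := Nat.lt_pow_self (by omega)
  have h2 : 1 ≤ (D.p n).f ^ s := by omega
  constructor
  · calc s < (D.p n).f ^ s := h1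
      _ ≤ (w + 1) * (D.p n).f ^ s := Nat.le_mul_of_pos_left _ (by omega)
      _ ≤ a := h
  · calc w < w + 1 := Nat.lt_succ_self w
      _ ≤ (w + 1) * (D.p n).f ^ s := Nat.le_mul_of_pos_right _ (by omega)
      _ ≤ a := h

theorem gJ_lt : gJ D n * gJ D n < (n + 2) ^ D.e := by
  have h1 := (hD.good n).hV
  have h2 := hD.goodF.hV n
  have h3 : gJ D n * gJ D n ≤ (D.p n).f ^ (2 * D.j0) * (D.p n).U := by
    have : gJ D n * gJ D n = (D.p n).f ^ (2 * D.j0) := by
      unfold gJ; rw [← pow_add]; congr 1; omega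
    rw [this]
    exact Nat.le_mul_of_pos_right _ (one_le_U hD n)
  omega

end

section

variable {D : Dat} (hD : D.Ok) (x : List Bool)

include hD

theorem rng_aA {l t u y v : ℕ} (hl : l ≤ (D.p x.length).L) (ht : t ≤ (D.p x.length).tm)
    (hu : u < (D.p x.length).N) (hy : y < (D.p x.length).N) (hv : v < (x.length + 2) ^ D.e) :
    ∀ i, aA l t u y v i < (x.length + 2) ^ D.e := by
  have h1 := Lt_lt hD x.length
  have h2 := N_lt hD x.length
  intro i
  fin_cases i <;> simp [aA] <;> omega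

theorem rng_aT {l t i j sg u y K g h s w v : ℕ} (hl : l + 1 ≤ (D.p x.length).L)
    (ht : t ≤ (D.p x.length).tm) (ho : okp (D.p x.length).b l t i j) (hsg : sg < 2)
    (hu : u < (D.p x.length).N) (hy : y < (D.p x.length).N) (hK : K ≤ (D.p x.length).U)
    (hg : g < (D.p x.length).P ^ 2) (hh : h < (D.p x.length).P ^ 2)
    (hw : (w + 1) * (D.p x.length).f ^ s ≤ gKb D x.length (prc (D.p x.length).b l t i j))
    (hv : v < (x.length + 2) ^ D.e) :
    ∀ k, aT l t i j sg u y K g h s w v k < (x.length + 2) ^ D.e := by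
  have h1 := Lt_lt hD x.length
  have h2 := N_lt hD x.length
  have h3 := U_lt hD x.length
  have h4 := sq_le hD x.length
  have h5 := (hw.trans (gKb_le hD x.length (prc_le ho ht)))
  obtain ⟨h6, h7⟩ := node_lt hD x.length h5
  have h8 := P_lt hD x.length
  have h9 := two_lt hD x.length
  have h10 : i ≤ t := ho.2.1
  have h11 : j ≤ t := ho.2.2.2.1
  intro k
  fin_cases k <;> simp [aT] <;> omega

theorem rng_aE {l t i j sg u y v : ℕ} (hl : l + 1 ≤ (D.p x.length).L)
    (ht : t ≤ (D.p x.length).tm) (ho : okp (D.p x.length).b l t i j) (hsg : sg < 2)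
    (hu : u < (D.p x.length).N) (hy : y < (D.p x.length).N) (hv : v < (x.length + 2) ^ D.e) :
    ∀ k, aE l t i j sg u y v k < (x.length + 2) ^ D.e := by
  have h1 := Lt_lt hD x.length
  have h2 := N_lt hD x.length
  have h9 := two_lt hD x.length
  have h10 : i ≤ t := ho.2.1
  have h11 : j ≤ t := ho.2.2.2.1
  intro k
  fin_cases k <;> simp [aE] <;> omega

theorem rng_aS {l t sg u y s w v : ℕ} (hl : l + 1 ≤ (D.p x.length).L)
    (ht : t ≤ (D.p x.length).tm) (hsg : sg < 2)
    (hu : u < (D.p x.length).N) (hy : y < (D.p x.length).N)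
    (hw : (w + 1) * (D.p x.length).f ^ s ≤ gJ D x.length * gJ D x.length)
    (hv : v < (x.length + 2) ^ D.e) :
    ∀ k, aS l t sg u y s w v k < (x.length + 2) ^ D.e := by
  have h1 := Lt_lt hD x.length
  have h2 := N_lt hD x.length
  obtain ⟨h6, h7⟩ := node_lt hD x.length hw
  have h8 := gJ_lt hD x.length
  have h9 := four_lt hD x.length
  intro k
  fin_cases k <;> simp [aS] <;> omega

end

/-- Nothing has to be ready at time `0`. -/
theorem inv_zero (D : Dat) (x : List Bool) (X : (Fin 14 → ℕ) → Prop) : Inv D x X 0 where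
  cA := by
    intro l t u y v _ _ _ _ _ _ h
    unfold rA at h
    omega
  cT := by
    intro l t i j sg u y K g h s w v _ _ _ _ _ _ _ _ _ _ _ h
    unfold rT at h
    omega
  cE := by
    intro l t i j sg u y v _ _ _ _ _ _ _ h
    unfold rE at h
    omega
  cS := by
    intro l t sg u y s w v _ _ _ _ _ _ _ h
    unfold rS at h
    omega

/-- The invariant holds at all times. -/
theorem modF7 (h2 : ModF2) (h3 : ModF3) (h4 : ModF4) (h5 : ModF5) (h6 : ModF6) : ModF7 := by
  intro D x hD hB T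
  induction T with
  | zero => exact inv_zero D x _
  | succ T ih =>
    refine ⟨?_, ?_, ?_, ?_⟩
    · intro l t u y v hl ht0 ht hu hy hv hr
      have hrng := rng_aA hD x hl ht hu hy hv
      have key : opF D x (it (opF D) D.e x T) (aA l t u y v) ↔ v = vA D x l t u y := by
        rcases l with _ | l
        · exact h2 D x hD 0 t u y v _ rfl hu hy hv
        · exact h3 D x hD hB T _ ih l t u y v hl ht0 ht hu hy hv hr
      rw [← key]
      exact and_iff_right hrng
    · intro l t i j sg u y K g h s w v hl ht ho hsg hu hy hK hg hh hw hv hr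
      have hrng := rng_aT hD x hl ht ho hsg hu hy hK hg hh hw hv
      rw [← h4 D x hD hB T _ ih l t i j sg u y K g h s w v hl ht ho hsg hu hy hK hg hh hw hv hr]
      exact and_iff_right hrng
    · intro l t i j sg u y v hl ht ho hsg hu hy hv hr
      have hrng := rng_aE hD x hl ht ho hsg hu hy hv
      rw [← h5 D x hD hB T _ ih l t i j sg u y v hl ht ho hsg hu hy hv hr]
      exact and_iff_right hrng
    · intro l t sg u y s w v hl ht hsg hu hy hw hv hr
      have hrng := rng_aS hD x hl ht hsg hu hy hw hv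
      rw [← h6 D x hD hB T _ ih l t sg u y s w v hl ht hsg hu hy hw hv hr]
      exact and_iff_right hrng

end Vale.Agent.P313.AC.H535
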