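import Mathlib

/-!
# P313, UniformAC1, module D: the pipelined squaring

One level of the pipelined squaring (`step`), and the induction over the levels (`pipe`).
`M` is the exact matrix of the level, `M2` its exact square, `a i` the approximation of precision
`i` (already divided by `Q`), `D i` the `i`-th digit, and the products of digits are only known
up to a relative error `2 / B ^ m`.
-/

namespace Vale.Agent.P313.AC.H535

open Finset

variable {N : Type*} [Fintype N]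

/-- The `i`-th digit of a sequence of approximations starting at `t0`. -/
def dig {R : Type*} [Sub R] (t0 : ℕ) (a : ℕ → N → N → R) (i : ℕ) (x y : N) : R :=
  if i = t0 then a i x y else a i x y - a (i - 1) x y

omit [Fintype N] in
/-- The digits add up to the approximation. -/
theorem sum_dig {R : Type*} [AddCommGroup R] (t0 : ℕ) (a : ℕ → N → N → R) (x y : N) {t : ℕ}
    (h : t0 ≤ t) : ∑ i ∈ Icc t0 t, dig t0 a i x y = a t x y := by
  induction t, h using Nat.le_induction with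
  | base => simp [dig]
  | succ t ht ih =>
      rw [Finset.sum_Icc_succ_top (by omega : t0 ≤ t + 1), ih]
      simp only [dig]
      rw [if_neg (by omega)]
      simp

omit [Fintype N] in
/-- The size of the digits. -/
theorem abs_dig_le {M : N → N → ℝ} (hM : ∀ x y, 0 ≤ M x y) {a : ℕ → N → N → ℝ} {B c : ℝ}
    {t0 t : ℕ} (hB : 2 ≤ B) (hc : 0 < c) (h1 : c / B ^ t0 ≤ 1 / 2) (h2 : B ^ t0 ≤ c * B)
    (ha : ∀ i, t0 ≤ i → i ≤ t → ∀ x y, |a i x y - M x y| ≤ c / B ^ i * M x y)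
    {i : ℕ} (hi : t0 ≤ i) (hit : i ≤ t) (x y : N) :
    |dig t0 a i x y| ≤ 3 / 2 * (c * B / B ^ i) * M x y := by
  have hB0 : (0 : ℝ) < B := by linarith
  unfold dig
  split_ifs with h
  · subst h
    have h3 := ha i hi hit x y
    have h4 : |a i x y| ≤ |a i x y - M x y| + |M x y| := by
      simpa using abs_add_le (a i x y - M x y) (M x y)
    rw [abs_of_nonneg (hM x y)] at h4
    have h5 : c / B ^ i * M x y ≤ 1 / 2 * M x y := mul_le_mul_of_nonneg_right h1 (hM x y)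
    have h6 : (1 : ℝ) ≤ c * B / B ^ i := by
      rw [le_div_iff₀ (by positivity)]; linarith
    have h7 : 3 / 2 * 1 * M x y ≤ 3 / 2 * (c * B / B ^ i) * M x y := by
      have := hM x y
      gcongr
    linarith
  · have h3 := ha i hi hit x y
    have h4 := ha (i - 1) (by omega) (by omega) x y
    have h5 : |a i x y - a (i - 1) x y| ≤ |a i x y - M x y| + |a (i - 1) x y - M x y| := by
      have := abs_sub_le (a i x y) (M x y) (a (i - 1) x y)
      rwa [abs_sub_comm (M x y)] at this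
    have h6 : c / B ^ (i - 1) = c * B / B ^ i := by
      obtain ⟨j, rfl⟩ : ∃ j, i = j + 1 := ⟨i - 1, by omega⟩
      simp only [Nat.add_sub_cancel]
      rw [pow_succ]
      field_simp
    have h7 : c / B ^ i ≤ 1 / 2 * (c * B / B ^ i) := by
      rw [← mul_div_assoc]
      gcongr
      nlinarith
    have h8 : c / B ^ i * M x y ≤ 1 / 2 * (c * B / B ^ i) * M x y :=
      mul_le_mul_of_nonneg_right h7 (hM x y)
    rw [h6] at h4
    linarith

/-- The square of an approximation. -/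
theorem abs_sq_sub_le {M M2 : N → N → ℝ} (hM : ∀ x y, 0 ≤ M x y)
    (hM2 : ∀ x y, M2 x y = ∑ k, M x k * M k y) {a : N → N → ℝ} {E : ℝ} (hE : 0 ≤ E)
    (ha : ∀ x y, |a x y - M x y| ≤ E * M x y) (x y : N) :
    |∑ k, a x k * a k y - M2 x y| ≤ (2 * E + E ^ 2) * M2 x y := by
  rw [hM2, ← sum_sub_distrib, mul_sum]
  refine (abs_sum_le_sum_abs _ _).trans (sum_le_sum fun k _ => ?_)
  have e : a x k * a k y - M x k * M k y =
      (a x k - M x k) * (a k y - M k y) + (a x k - M x k) * M k y + M x k * (a k y - M k y) := by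
    ring
  rw [e]
  refine (abs_add_le _ _).trans ?_
  refine (add_le_add_left (abs_add_le _ _) _).trans ?_
  rw [abs_mul, abs_mul, abs_mul, abs_of_nonneg (hM x k), abs_of_nonneg (hM k y)]
  have h1 := ha x k
  have h2 := ha k y
  have h3 := hM x k
  have h4 := hM k y
  have h5 : |a x k - M x k| * |a k y - M k y| ≤ (E * M x k) * (E * M k y) := by gcongr
  have h6 : |a x k - M x k| * M k y ≤ (E * M x k) * M k y := by gcongr
  have h7 : M x k * |a k y - M k y| ≤ M x k * (E * M k y) := by gcongr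
  nlinarith

/-- Positive part of the product of the digits `i` and `j`, entry `x y`. -/
def posP (D : ℕ → N → N → ℝ) (i j : ℕ) (x y : N) : ℝ := ∑ k, max (D i x k * D j k y) 0

/-- Negative part of the product of the digits `i` and `j`, entry `x y`. -/
def negP (D : ℕ → N → N → ℝ) (i j : ℕ) (x y : N) : ℝ := ∑ k, max (-(D i x k * D j k y)) 0

theorem posP_nonneg (D : ℕ → N → N → ℝ) (i j : ℕ) (x y : N) : 0 ≤ posP D i j x y :=
  sum_nonneg fun _ _ => le_max_right _ _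

theorem negP_nonneg (D : ℕ → N → N → ℝ) (i j : ℕ) (x y : N) : 0 ≤ negP D i j x y :=
  sum_nonneg fun _ _ => le_max_right _ _

theorem posP_sub_negP (D : ℕ → N → N → ℝ) (i j : ℕ) (x y : N) :
    posP D i j x y - negP D i j x y = ∑ k, D i x k * D j k y := by
  unfold posP negP
  rw [← sum_sub_distrib]
  refine sum_congr rfl fun k _ => ?_
  rcases le_total 0 (D i x k * D j k y) with h | h
  · rw [max_eq_left h, max_eq_right (by linarith)]; ring
  · rw [max_eq_right h, max_eq_left (by linarith)]; ring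

theorem posP_add_negP (D : ℕ → N → N → ℝ) (i j : ℕ) (x y : N) :
    posP D i j x y + negP D i j x y = ∑ k, |D i x k| * |D j k y| := by
  unfold posP negP
  rw [← sum_add_distrib]
  refine sum_congr rfl fun k _ => ?_
  rw [← abs_mul]
  rcases le_total 0 (D i x k * D j k y) with h | h
  · rw [max_eq_left h, max_eq_right (by linarith), abs_of_nonneg h]; ring
  · rw [max_eq_right h, max_eq_left (by linarith), abs_of_nonpos h]; ring

/-- ONE LEVEL OF THE PIPELINE. -/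
theorem step {M M2 : N → N → ℝ} (hM : ∀ x y, 0 ≤ M x y)
    (hM2 : ∀ x y, M2 x y = ∑ k, M x k * M k y) {a : ℕ → N → N → ℝ} {B c : ℝ}
    {t0 t : ℕ} (ht : t0 ≤ t) (hB : 2 ≤ B) (hc : 0 < c) (h1 : c / B ^ t0 ≤ 1 / 2)
    (h2 : B ^ t0 ≤ c * B)
    (ha : ∀ i, t0 ≤ i → i ≤ t → ∀ x y, |a i x y - M x y| ≤ c / B ^ i * M x y)
    (hBt : 9 / 2 * ((t : ℝ) + 1) ^ 2 ≤ B) (x y : N) (p q : ℕ → ℕ → ℝ)
    (hp : ∀ i j, t0 ≤ i → i ≤ t → t0 ≤ j → j ≤ t → i + j ≤ t + t0 + 2 →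
      (1 - 2 / B ^ (t + t0 + 3 - i - j)) * posP (dig t0 a) i j x y ≤ p i j ∧
        p i j ≤ posP (dig t0 a) i j x y)
    (hq : ∀ i j, t0 ≤ i → i ≤ t → t0 ≤ j → j ≤ t → i + j ≤ t + t0 + 2 →
      (1 - 2 / B ^ (t + t0 + 3 - i - j)) * negP (dig t0 a) i j x y ≤ q i j ∧
        q i j ≤ negP (dig t0 a) i j x y) :
    |∑ i ∈ Icc t0 t, ∑ j ∈ Icc t0 t, (if i + j ≤ t + t0 + 2 then p i j - q i j else 0) -
        M2 x y| ≤ 3 * (c / B ^ t) * M2 x y := by
  have hB0 : (0 : ℝ) < B := by linarith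
  set E : ℝ := c / B ^ t with hE
  have hE0 : 0 < E := by positivity
  have hM2n : 0 ≤ M2 x y := by
    rw [hM2]; exact sum_nonneg fun k _ => mul_nonneg (hM _ _) (hM _ _)
  have hEh : E ≤ 1 / 2 := by
    refine le_trans ?_ h1
    rw [hE]
    gcongr
    linarith
  -- the square
  have hsq := abs_sq_sub_le hM hM2 hE0.le (ha t ht le_rfl) x y
  have hsq' : |∑ k, a t x k * a t k y - M2 x y| ≤ 5 / 2 * E * M2 x y := by
    refine hsq.trans (mul_le_mul_of_nonneg_right ?_ hM2n)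
    nlinarith
  -- the square as a double sum over the digits
  have hexp : ∑ k, a t x k * a t k y = ∑ i ∈ Icc t0 t, ∑ j ∈ Icc t0 t,
      ∑ k, dig t0 a i x k * dig t0 a j k y := by
    have e1 : ∀ k, a t x k * a t k y =
        ∑ i ∈ Icc t0 t, ∑ j ∈ Icc t0 t, dig t0 a i x k * dig t0 a j k y := by
      intro k
      rw [← sum_dig t0 a x k ht, ← sum_dig t0 a k y ht, sum_mul_sum]
    calc ∑ k, a t x k * a t k y
        = ∑ k, ∑ i ∈ Icc t0 t, ∑ j ∈ Icc t0 t, dig t0 a i x k * dig t0 a j k y :=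
          sum_congr rfl fun k _ => e1 k
      _ = ∑ i ∈ Icc t0 t, ∑ k, ∑ j ∈ Icc t0 t, dig t0 a i x k * dig t0 a j k y := sum_comm
      _ = _ := sum_congr rfl fun i _ => sum_comm
  -- every pair
  have hpair : ∀ i ∈ Icc t0 t, ∀ j ∈ Icc t0 t,
      |(if i + j ≤ t + t0 + 2 then p i j - q i j else 0) -
        ∑ k, dig t0 a i x k * dig t0 a j k y| ≤ 9 / 4 * (E / B) * M2 x y := by
    intro i hi j hj
    rw [mem_Icc] at hi hj
    have hS : ∑ k, |dig t0 a i x k| * |dig t0 a j k y| ≤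
        9 / 4 * (c * B / B ^ i) * (c * B / B ^ j) * M2 x y := by
      rw [hM2, mul_sum]
      refine sum_le_sum fun k _ => ?_
      have d1 := abs_dig_le hM hB hc h1 h2 ha hi.1 hi.2 x k
      have d2 := abs_dig_le hM hB hc h1 h2 ha hj.1 hj.2 k y
      have h3 := hM x k
      have h4 := hM k y
      calc |dig t0 a i x k| * |dig t0 a j k y|
          ≤ (3 / 2 * (c * B / B ^ i) * M x k) * (3 / 2 * (c * B / B ^ j) * M k y) := by
            gcongr
        _ = _ := by ring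
    have hcE : c / B ^ (t + t0 + 1) ≤ 1 / 2 * (1 / B ^ t * (1 / B)) := by
      have : c / B ^ (t + t0 + 1) = c / B ^ t0 * (1 / B ^ t * (1 / B)) := by
        rw [pow_succ, pow_add]; field_simp
      rw [this]
      gcongr
    split_ifs with hij
    · obtain ⟨hp1, hp2⟩ := hp i j hi.1 hi.2 hj.1 hj.2 hij
      obtain ⟨hq1, hq2⟩ := hq i j hi.1 hi.2 hj.1 hj.2 hij
      set m := t + t0 + 3 - i - j with hm
      have hmij : m + i + j = t + t0 + 1 + 2 := by omega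
      rw [← posP_sub_negP]
      have hsum := posP_add_negP (dig t0 a) i j x y
      have e1 : |p i j - q i j - (posP (dig t0 a) i j x y - negP (dig t0 a) i j x y)| ≤
          2 / B ^ m * (posP (dig t0 a) i j x y + negP (dig t0 a) i j x y) := by
        rw [abs_le]
        have hp0 := posP_nonneg (dig t0 a) i j x y
        have hq0 := negP_nonneg (dig t0 a) i j x y
        have hm0 : 0 ≤ 2 / B ^ m := by positivity
        constructor <;> nlinarith [mul_nonneg hm0 hp0, mul_nonneg hm0 hq0]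
      refine e1.trans ?_
      rw [hsum]
      have e2 : 2 / B ^ m * (9 / 4 * (c * B / B ^ i) * (c * B / B ^ j)) =
          9 / 2 * (c * (c / B ^ (t + t0 + 1))) := by
        have : B ^ m * B ^ i * B ^ j = B ^ (t + t0 + 1) * B ^ 2 := by
          rw [← pow_add, ← pow_add, ← pow_add, hmij]
        have hx : (2 / B ^ m * (9 / 4 * (c * B / B ^ i) * (c * B / B ^ j))) =
            9 / 2 * (c * c * B ^ 2) / (B ^ m * B ^ i * B ^ j) := by
          field_simp; ring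
        rw [hx, this]
        field_simp
      calc 2 / B ^ m * ∑ k, |dig t0 a i x k| * |dig t0 a j k y|
          ≤ 2 / B ^ m * (9 / 4 * (c * B / B ^ i) * (c * B / B ^ j) * M2 x y) := by gcongr
        _ = 9 / 2 * (c * (c / B ^ (t + t0 + 1))) * M2 x y := by rw [← e2]; ring
        _ ≤ 9 / 2 * (c * (1 / 2 * (1 / B ^ t * (1 / B)))) * M2 x y := by gcongr
        _ = 9 / 4 * (E / B) * M2 x y := by rw [hE]; field_simp; ring
    · rw [zero_sub, abs_neg]
      have e1 : |∑ k, dig t0 a i x k * dig t0 a j k y| ≤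
          ∑ k, |dig t0 a i x k| * |dig t0 a j k y| := by
        refine (abs_sum_le_sum_abs _ _).trans_eq (sum_congr rfl fun k _ => abs_mul _ _)
      refine e1.trans (hS.trans ?_)
      have hge : B ^ (t + t0 + 1) * B ^ 2 ≤ B ^ i * B ^ j := by
        rw [← pow_add, ← pow_add]
        exact pow_le_pow_right₀ (by linarith) (by omega)
      have e2 : c * B / B ^ i * (c * B / B ^ j) ≤ c * (c / B ^ (t + t0 + 1)) := by
        have hx : c * B / B ^ i * (c * B / B ^ j) = c * c * B ^ 2 / (B ^ i * B ^ j) := by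
          field_simp
        have hy : c * (c / B ^ (t + t0 + 1)) = c * c * B ^ 2 / (B ^ (t + t0 + 1) * B ^ 2) := by
          field_simp
        rw [hx, hy]
        gcongr
      calc 9 / 4 * (c * B / B ^ i) * (c * B / B ^ j) * M2 x y
          = 9 / 4 * (c * B / B ^ i * (c * B / B ^ j)) * M2 x y := by ring
        _ ≤ 9 / 4 * (c * (c / B ^ (t + t0 + 1))) * M2 x y := by gcongr
        _ ≤ 9 / 4 * (c * (1 / 2 * (1 / B ^ t * (1 / B)))) * M2 x y := by gcongr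
        _ = 9 / 8 * (E / B) * M2 x y := by rw [hE]; field_simp; ring
        _ ≤ 9 / 4 * (E / B) * M2 x y := by gcongr; norm_num
  -- all pairs
  have hall : |∑ i ∈ Icc t0 t, ∑ j ∈ Icc t0 t,
      (if i + j ≤ t + t0 + 2 then p i j - q i j else 0) - ∑ k, a t x k * a t k y| ≤
      1 / 2 * E * M2 x y := by
    rw [hexp, ← sum_sub_distrib]
    refine (abs_sum_le_sum_abs _ _).trans ?_
    have e1 : ∀ i ∈ Icc t0 t, |∑ j ∈ Icc t0 t,
        (if i + j ≤ t + t0 + 2 then p i j - q i j else 0) -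
          ∑ j ∈ Icc t0 t, ∑ k, dig t0 a i x k * dig t0 a j k y| ≤
        ((t : ℝ) + 1) * (9 / 4 * (E / B) * M2 x y) := by
      intro i hi
      rw [← sum_sub_distrib]
      refine (abs_sum_le_sum_abs _ _).trans ?_
      refine (sum_le_sum (hpair i hi)).trans ?_
      rw [sum_const, nsmul_eq_mul]
      have hcard : ((Icc t0 t).card : ℝ) ≤ (t : ℝ) + 1 := by
        rw [Nat.card_Icc]; exact_mod_cast (by omega : t + 1 - t0 ≤ t + 1)
      gcongr
    refine (sum_le_sum e1).trans ?_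
    rw [sum_const, nsmul_eq_mul]
    have hcard : ((Icc t0 t).card : ℝ) ≤ (t : ℝ) + 1 := by
      rw [Nat.card_Icc]; exact_mod_cast (by omega : t + 1 - t0 ≤ t + 1)
    calc ((Icc t0 t).card : ℝ) * (((t : ℝ) + 1) * (9 / 4 * (E / B) * M2 x y))
        ≤ ((t : ℝ) + 1) * (((t : ℝ) + 1) * (9 / 4 * (E / B) * M2 x y)) := by gcongr
      _ = 1 / 2 * E * M2 x y * ((9 / 2 * ((t : ℝ) + 1) ^ 2) / B) := by ring
      _ ≤ 1 / 2 * E * M2 x y * 1 := by
          gcongr
          rw [div_le_one hB0]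
          exact hBt
      _ = 1 / 2 * E * M2 x y := by ring
  calc |∑ i ∈ Icc t0 t, ∑ j ∈ Icc t0 t, (if i + j ≤ t + t0 + 2 then p i j - q i j else 0) -
        M2 x y|
      ≤ |∑ i ∈ Icc t0 t, ∑ j ∈ Icc t0 t, (if i + j ≤ t + t0 + 2 then p i j - q i j else 0) -
          ∑ k, a t x k * a t k y| + |∑ k, a t x k * a t k y - M2 x y| := abs_sub_le _ _ _
    _ ≤ 1 / 2 * E * M2 x y + 5 / 2 * E * M2 x y := add_le_add hall hsq'
    _ = 3 * E * M2 x y := by ring

/-! ### Integers -/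

/-- Positive part of the product of two integer digits. -/
def posZ (D : ℕ → N → N → ℤ) (i j : ℕ) (x y : N) : ℤ := ∑ k, max (D i x k * D j k y) 0

/-- Negative part of the product of two integer digits. -/
def negZ (D : ℕ → N → N → ℤ) (i j : ℕ) (x y : N) : ℤ := ∑ k, max (-(D i x k * D j k y)) 0

omit [Fintype N] in
theorem dig_div (t0 : ℕ) (A : ℕ → N → N → ℤ) (Q : ℝ) (i : ℕ) (x y : N) :
    dig t0 (fun i x y => (A i x y : ℝ) / Q) i x y = ((dig t0 A i x y : ℤ) : ℝ) / Q := by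
  unfold dig
  split_ifs with h
  · rfl
  · push_cast; ring

theorem posP_div (t0 : ℕ) (A : ℕ → N → N → ℤ) {Q : ℝ} (hQ : 0 < Q) (i j : ℕ) (x y : N) :
    posP (dig t0 (fun i x y => (A i x y : ℝ) / Q)) i j x y =
      (posZ (dig t0 A) i j x y : ℝ) / Q ^ 2 := by
  unfold posP posZ
  push_cast
  rw [sum_div]
  refine sum_congr rfl fun k _ => ?_
  rw [dig_div, dig_div, ← max_div_div_right (by positivity : (0 : ℝ) ≤ Q ^ 2), zero_div]
  congr 1
  field_simp

theorem negP_div (t0 : ℕ) (A : ℕ → N → N → ℤ) {Q : ℝ} (hQ : 0 < Q) (i j : ℕ) (x y : N) :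
    negP (dig t0 (fun i x y => (A i x y : ℝ) / Q)) i j x y =
      (negZ (dig t0 A) i j x y : ℝ) / Q ^ 2 := by
  unfold negP negZ
  push_cast
  rw [sum_div]
  refine sum_congr rfl fun k _ => ?_
  rw [dig_div, dig_div, ← max_div_div_right (by positivity : (0 : ℝ) ≤ Q ^ 2), zero_div]
  congr 1
  field_simp

/-- The sum `W` of the estimates, integers. -/
theorem stepW {M M2 : N → N → ℝ} (hM : ∀ x y, 0 ≤ M x y)
    (hM2 : ∀ x y, M2 x y = ∑ k, M x k * M k y) {A : ℕ → N → N → ℤ} {B c : ℝ} {Q : ℕ}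
    {t0 t : ℕ} (ht : t0 ≤ t) (hB : 2 ≤ B) (hc : 0 < c) (h1 : c / B ^ t0 ≤ 1 / 2)
    (h2 : B ^ t0 ≤ c * B) (hQ0 : 0 < Q)
    (ha : ∀ i, t0 ≤ i → i ≤ t → ∀ x y, |(A i x y : ℝ) / Q - M x y| ≤ c / B ^ i * M x y)
    (hBt : 9 / 2 * ((t : ℝ) + 1) ^ 2 ≤ B) (x y : N) (p q : ℕ → ℕ → ℤ)
    (hp : ∀ i j, t0 ≤ i → i ≤ t → t0 ≤ j → j ≤ t → i + j ≤ t + t0 + 2 →
      (1 - 2 / B ^ (t + t0 + 3 - i - j)) * (posZ (dig t0 A) i j x y : ℝ) ≤ p i j ∧
        p i j ≤ posZ (dig t0 A) i j x y)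
    (hq : ∀ i j, t0 ≤ i → i ≤ t → t0 ≤ j → j ≤ t → i + j ≤ t + t0 + 2 →
      (1 - 2 / B ^ (t + t0 + 3 - i - j)) * (negZ (dig t0 A) i j x y : ℝ) ≤ q i j ∧
        q i j ≤ negZ (dig t0 A) i j x y) :
    |((∑ i ∈ Icc t0 t, ∑ j ∈ Icc t0 t,
        (if i + j ≤ t + t0 + 2 then p i j - q i j else 0) : ℤ) : ℝ) / Q ^ 2 - M2 x y| ≤
      3 * (c / B ^ t) * M2 x y := by
  have hQr : (0 : ℝ) < Q := by exact_mod_cast hQ0
  have hs := step hM hM2 (a := fun i x y => (A i x y : ℝ) / Q) ht hB hc h1 h2 ha hBt x y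
    (fun i j => (p i j : ℝ) / Q ^ 2) (fun i j => (q i j : ℝ) / Q ^ 2)
    (by
      intro i j h3 h4 h5 h6 h7
      obtain ⟨h8, h9⟩ := hp i j h3 h4 h5 h6 h7
      rw [posP_div t0 A hQr, ← mul_div_assoc]
      have h9' : (p i j : ℝ) ≤ posZ (dig t0 A) i j x y := by exact_mod_cast h9
      constructor <;> gcongr)
    (by
      intro i j h3 h4 h5 h6 h7
      obtain ⟨h8, h9⟩ := hq i j h3 h4 h5 h6 h7
      rw [negP_div t0 A hQr, ← mul_div_assoc]
      have h9' : (q i j : ℝ) ≤ negZ (dig t0 A) i j x y := by exact_mod_cast h9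
      constructor <;> gcongr)
  have hWr : (∑ i ∈ Icc t0 t, ∑ j ∈ Icc t0 t,
      (if i + j ≤ t + t0 + 2 then (p i j : ℝ) / Q ^ 2 - (q i j : ℝ) / Q ^ 2 else 0)) =
      ((∑ i ∈ Icc t0 t, ∑ j ∈ Icc t0 t,
        (if i + j ≤ t + t0 + 2 then p i j - q i j else 0) : ℤ) : ℝ) / Q ^ 2 := by
    push_cast
    rw [sum_div]
    refine sum_congr rfl fun i _ => ?_
    rw [sum_div]
    refine sum_congr rfl fun j _ => ?_
    split_ifs <;> ring
  rwa [hWr] at hs

omit [Fintype N] in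
/-- Rounding. -/
theorem round_le {M2 : N → N → ℝ} {e : ℝ} {Q : ℕ} (hQ0 : 0 < Q) (x y : N) (W : ℤ)
    (hs : |(W : ℝ) / Q ^ 2 - M2 x y| ≤ 3 * e * M2 x y) (hQ : 2 ≤ Q * e * M2 x y) :
    |((W / (Q : ℤ) : ℤ) : ℝ) / Q - M2 x y| ≤ 4 * e * M2 x y := by
  have hQr : (0 : ℝ) < Q := by exact_mod_cast hQ0
  have hr1 : ((W / (Q : ℤ) : ℤ) : ℝ) ≤ (W : ℝ) / Q := by
    rw [le_div_iff₀ hQr]
    exact_mod_cast Int.ediv_mul_le W (by exact_mod_cast hQ0.ne')
  have hr2 : (W : ℝ) / Q ≤ ((W / (Q : ℤ) : ℤ) : ℝ) + 1 := by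
    rw [div_le_iff₀ hQr]
    have := Int.lt_ediv_add_one_mul_self W (by exact_mod_cast hQ0 : (0 : ℤ) < Q)
    exact_mod_cast this.le
  have hr3 : |((W / (Q : ℤ) : ℤ) : ℝ) / Q - (W : ℝ) / Q ^ 2| ≤ 1 / Q := by
    have e : ((W / (Q : ℤ) : ℤ) : ℝ) / Q - (W : ℝ) / Q ^ 2 =
        (((W / (Q : ℤ) : ℤ) : ℝ) - (W : ℝ) / Q) / Q := by field_simp
    rw [e, abs_div, abs_of_pos hQr]
    gcongr
    rw [abs_le]
    constructor <;> linarith
  have hr4 : (1 : ℝ) / Q ≤ 1 / 2 * e * M2 x y := by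
    rw [div_le_iff₀ hQr]; nlinarith
  have h := abs_sub_le (((W / (Q : ℤ) : ℤ) : ℝ) / Q) ((W : ℝ) / Q ^ 2) (M2 x y)
  have h0 : (0 : ℝ) ≤ 1 / Q := by positivity
  nlinarith

/-- ONE LEVEL OF THE PIPELINE, integers. `Q` scales the matrices, the new value is the sum of
the estimates divided by `Q` and rounded down. -/
theorem stepZ {M M2 : N → N → ℝ} (hM : ∀ x y, 0 ≤ M x y)
    (hM2 : ∀ x y, M2 x y = ∑ k, M x k * M k y) {A : ℕ → N → N → ℤ} {B c : ℝ} {Q : ℕ}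
    {t0 t : ℕ} (ht : t0 ≤ t) (hB : 2 ≤ B) (hc : 0 < c) (h1 : c / B ^ t0 ≤ 1 / 2)
    (h2 : B ^ t0 ≤ c * B) (hQ0 : 0 < Q)
    (ha : ∀ i, t0 ≤ i → i ≤ t → ∀ x y, |(A i x y : ℝ) / Q - M x y| ≤ c / B ^ i * M x y)
    (hBt : 9 / 2 * ((t : ℝ) + 1) ^ 2 ≤ B) (x y : N) (p q : ℕ → ℕ → ℤ)
    (hp : ∀ i j, t0 ≤ i → i ≤ t → t0 ≤ j → j ≤ t → i + j ≤ t + t0 + 2 →
      (1 - 2 / B ^ (t + t0 + 3 - i - j)) * (posZ (dig t0 A) i j x y : ℝ) ≤ p i j ∧
        p i j ≤ posZ (dig t0 A) i j x y)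
    (hq : ∀ i j, t0 ≤ i → i ≤ t → t0 ≤ j → j ≤ t → i + j ≤ t + t0 + 2 →
      (1 - 2 / B ^ (t + t0 + 3 - i - j)) * (negZ (dig t0 A) i j x y : ℝ) ≤ q i j ∧
        q i j ≤ negZ (dig t0 A) i j x y)
    (hQ : 2 ≤ Q * (c / B ^ t) * M2 x y) :
    |(((∑ i ∈ Icc t0 t, ∑ j ∈ Icc t0 t, (if i + j ≤ t + t0 + 2 then p i j - q i j else 0)) /
        (Q : ℤ) : ℤ) : ℝ) / Q - M2 x y| ≤ 4 * c / B ^ t * M2 x y := by
  rw [mul_div_assoc]
  exact round_le hQ0 x y _ (stepW hM hM2 ht hB hc h1 h2 hQ0 ha hBt x y p q hp hq) hQ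

/-! ### All levels -/

/-- First precision of level `l`. -/
def t0 (b l : ℕ) : ℕ := 2 * l / b + 1

theorem t0_mono {b l l' : ℕ} (h : l ≤ l') : t0 b l ≤ t0 b l' := by
  unfold t0; gcongr

theorem pow_t0_ge {b : ℕ} (hb : 0 < b) (l : ℕ) : 2 * (4 : ℝ) ^ l ≤ ((2 : ℝ) ^ b) ^ t0 b l := by
  have h : 2 * l + 1 ≤ b * t0 b l := by
    unfold t0
    have := Nat.lt_mul_div_succ (2 * l) hb
    omega
  calc 2 * (4 : ℝ) ^ l = 2 ^ (2 * l + 1) := by rw [pow_succ, pow_mul]; norm_num; ring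
    _ ≤ 2 ^ (b * t0 b l) := pow_le_pow_right₀ (by norm_num) h
    _ = _ := by rw [pow_mul]

theorem pow_t0_le (b l : ℕ) : ((2 : ℝ) ^ b) ^ t0 b l ≤ 4 ^ l * 2 ^ b := by
  unfold t0
  rw [pow_succ]
  gcongr
  rw [← pow_mul]
  calc (2 : ℝ) ^ (b * (2 * l / b)) ≤ 2 ^ (2 * l) :=
        pow_le_pow_right₀ (by norm_num) (Nat.mul_div_le _ _)
    _ = 4 ^ l := by rw [pow_mul]; norm_num

/-- THE PIPELINE. `G l` is the exact matrix of level `l` (level `l + 1` is its square), all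
entries at least `mu`, `A l t` the integer approximation of level `l` with precision `t`,
obtained from the ones of level `l` with precision at most `t` by lower estimates with relative
error `2 / B ^ m` of the products of digits. -/
theorem pipe {G : ℕ → N → N → ℝ} (hG : ∀ l x y, G (l + 1) x y = ∑ k, G l x k * G l k y)
    {mu : ℝ} (hmu : 0 < mu) {L b T Q : ℕ} (hGm : ∀ l ≤ L, ∀ x y, mu ≤ G l x y) (hb : 0 < b)
    (hBT : 9 / 2 * ((T : ℝ) + 1) ^ 2 ≤ 2 ^ b) (hQ : 2 * ((2 : ℝ) ^ b) ^ T ≤ Q * mu)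
    {A : ℕ → ℕ → N → N → ℤ} (hA0 : ∀ t, 1 ≤ t → t ≤ T → ∀ x y, (A 0 t x y : ℝ) = Q * G 0 x y)
    (hA : ∀ l < L, ∀ t, t0 b (l + 1) ≤ t → t ≤ T → ∀ x y, ∃ p q : ℕ → ℕ → ℤ,
      (∀ i j, t0 b l ≤ i → i ≤ t → t0 b l ≤ j → j ≤ t → i + j ≤ t + t0 b l + 2 →
        ((1 - 2 / ((2 : ℝ) ^ b) ^ (t + t0 b l + 3 - i - j)) *
            (posZ (dig (t0 b l) (A l)) i j x y : ℝ) ≤ p i j ∧
          p i j ≤ posZ (dig (t0 b l) (A l)) i j x y) ∧
        ((1 - 2 / ((2 : ℝ) ^ b) ^ (t + t0 b l + 3 - i - j)) *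
            (negZ (dig (t0 b l) (A l)) i j x y : ℝ) ≤ q i j ∧
          q i j ≤ negZ (dig (t0 b l) (A l)) i j x y)) ∧
      A (l + 1) t x y = (∑ i ∈ Icc (t0 b l) t, ∑ j ∈ Icc (t0 b l) t,
        (if i + j ≤ t + t0 b l + 2 then p i j - q i j else 0)) / (Q : ℤ)) :
    ∀ l ≤ L, ∀ t, t0 b l ≤ t → t ≤ T → ∀ x y,
      |(A l t x y : ℝ) / Q - G l x y| ≤ 4 ^ l / ((2 : ℝ) ^ b) ^ t * G l x y := by
  have hB : (2 : ℝ) ≤ 2 ^ b := by
    calc (2 : ℝ) = 2 ^ 1 := by norm_num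
      _ ≤ 2 ^ b := pow_le_pow_right₀ (by norm_num) hb
  have hQ0 : 0 < Q := by
    rcases Nat.eq_zero_or_pos Q with h | h
    · subst h
      have : (0 : ℝ) < 2 * ((2 : ℝ) ^ b) ^ T := by positivity
      simp only [Nat.cast_zero, zero_mul] at hQ
      linarith
    · exact h
  have hQr : (0 : ℝ) < Q := by exact_mod_cast hQ0
  intro l
  induction l with
  | zero =>
      intro _ t ht htT x y
      have h1 := hA0 t (by simpa [t0] using ht) htT x y
      rw [h1, mul_div_assoc, mul_comm, div_mul_cancel₀ _ hQr.ne', sub_self, abs_zero]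
      have := hGm 0 (by omega) x y
      exact mul_nonneg (by positivity) (hmu.le.trans this)
  | succ l ih =>
      intro hl t ht htT x y
      obtain ⟨p, q, hpq, he⟩ := hA l (by omega) t ht htT x y
      have ht0 : t0 b l ≤ t := (t0_mono (Nat.le_succ l)).trans ht
      have hM : ∀ x y, 0 ≤ G l x y := fun x y => hmu.le.trans (hGm l (by omega) x y)
      rw [he, pow_succ, mul_comm ((4 : ℝ) ^ l) 4]
      refine stepZ hM (hG l) ht0 hB (by positivity) ?_ (pow_t0_le b l) hQ0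
        (fun i h1 h2 => ih (by omega) i h1 (h2.trans htT)) ?_ x y p q
        (fun i j h1 h2 h3 h4 h5 => (hpq i j h1 h2 h3 h4 h5).1)
        (fun i j h1 h2 h3 h4 h5 => (hpq i j h1 h2 h3 h4 h5).2) ?_
      · rw [div_le_iff₀ (by positivity)]
        have := pow_t0_ge hb l
        linarith
      · refine le_trans ?_ hBT
        have : (t : ℝ) ≤ T := by exact_mod_cast htT
        gcongr
      · have h4 : (1 : ℝ) ≤ 4 ^ l := one_le_pow₀ (by norm_num)
        have h5 : ((2 : ℝ) ^ b) ^ t ≤ ((2 : ℝ) ^ b) ^ T := pow_le_pow_right₀ (by linarith) htT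
        have h6 : mu ≤ G (l + 1) x y := hGm (l + 1) hl x y
        have h7 : 1 / ((2 : ℝ) ^ b) ^ T ≤ 4 ^ l / ((2 : ℝ) ^ b) ^ t := by gcongr
        calc (2 : ℝ) = 2 * ((2 : ℝ) ^ b) ^ T * (1 / ((2 : ℝ) ^ b) ^ T) := by field_simp
          _ ≤ Q * mu * (4 ^ l / ((2 : ℝ) ^ b) ^ t) := by gcongr
          _ ≤ Q * G (l + 1) x y * (4 ^ l / ((2 : ℝ) ^ b) ^ t) := by gcongr
          _ = Q * (4 ^ l / ((2 : ℝ) ^ b) ^ t) * G (l + 1) x y := by ring

end Vale.Agent.P313.AC.H535
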