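import Vale.Agent.P313.AC.Spec
import Vale.Agent.P313.AC.H535.Pipe

/-!
# P313, UniformAC1: module D
-/

namespace Vale.Agent.P313.AC

open Finset

namespace H535

/-- The powers of a stochastic matrix with entries at least `mu` are stochastic with entries at
least `mu`. -/
theorem sqr_facts {N : ℕ} {G : ℕ → ℕ → ℝ} {μ : ℝ} (hμ : 0 < μ)
    (hG : ∀ x < N, ∀ y < N, μ ≤ G x y) (hG1 : ∀ x < N, ∑ y ∈ range N, G x y = 1) (l : ℕ) :
    (∀ x < N, ∀ y < N, μ ≤ sqr N G l x y) ∧ ∀ x < N, ∑ y ∈ range N, sqr N G l x y = 1 := by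
  induction l with
  | zero => exact ⟨hG, hG1⟩
  | succ l ih =>
      constructor
      · intro x hx y hy
        calc μ = ∑ k ∈ range N, sqr N G l x k * μ := by rw [← sum_mul, ih.2 x hx, one_mul]
          _ ≤ ∑ k ∈ range N, sqr N G l x k * sqr N G l k y := by
              refine sum_le_sum fun k hk => ?_
              have h1 := ih.1 x hx k (mem_range.1 hk)
              exact mul_le_mul_of_nonneg_left (ih.1 k (mem_range.1 hk) y hy) (hμ.le.trans h1)
      · intro x hx
        calc ∑ y ∈ range N, sqr N G (l + 1) x y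
            = ∑ y ∈ range N, ∑ k ∈ range N, sqr N G l x k * sqr N G l k y := rfl
          _ = ∑ k ∈ range N, ∑ y ∈ range N, sqr N G l x k * sqr N G l k y := sum_comm
          _ = ∑ k ∈ range N, sqr N G l x k := by
              refine sum_congr rfl fun k hk => ?_
              rw [← mul_sum, ih.2 k (mem_range.1 hk), mul_one]
          _ = 1 := ih.2 x hx

theorem sqr_le_one {N : ℕ} {G : ℕ → ℕ → ℝ} {μ : ℝ} (hμ : 0 < μ)
    (hG : ∀ x < N, ∀ y < N, μ ≤ G x y) (hG1 : ∀ x < N, ∑ y ∈ range N, G x y = 1) (l : ℕ)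
    {x y : ℕ} (hx : x < N) (hy : y < N) : sqr N G l x y ≤ 1 := by
  have h := sqr_facts hμ hG hG1 l
  rw [← h.2 x hx]
  exact single_le_sum (f := fun y => sqr N G l x y)
    (fun i hi => hμ.le.trans (h.1 x hx i (mem_range.1 hi))) (mem_range.2 hy)

theorem sum_Icc_range {t0 t J : ℕ} (hJ : t < J) (f : ℕ → ℤ) :
    ∑ i ∈ range J, (if t0 ≤ i ∧ i ≤ t then f i else 0) = ∑ i ∈ Icc t0 t, f i := by
  rw [← sum_filter]
  refine sum_congr ?_ fun _ _ => rfl
  ext i
  simp only [mem_filter, mem_range, mem_Icc]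
  omega

end H535

open H535 in
/-- Module D. -/
theorem modD : ModD := by
  intro N Q b J L tm apx A0 G μ hb hB hJ hL hμ hG hG1 hA0 hQ hapx
  have hBr : (18 : ℝ) * ((tm : ℝ) + 1) ^ 2 ≤ 2 ^ b := by exact_mod_cast hB
  have hB2 : (2 : ℝ) ≤ 2 ^ b := by
    have : (0 : ℝ) ≤ tm := Nat.cast_nonneg _
    nlinarith
  have hB0 : (0 : ℝ) < 2 ^ b := by positivity
  have hQ0 : 0 < Q := by
    rcases Nat.eq_zero_or_pos Q with h | h
    · subst h
      have : (0 : ℝ) < 2 * ((2 : ℝ) ^ b) ^ tm := by positivity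
      simp only [Nat.cast_zero, zero_mul] at hQ
      linarith
    · exact h
  have hQr : (0 : ℝ) < Q := by exact_mod_cast hQ0
  have hF := fun l => sqr_facts hμ hG hG1 l
  have hle1 := fun l x y hx hy => sqr_le_one hμ hG hG1 l (x := x) (y := y) hx hy
  intro l
  induction l with
  | zero =>
      intro _ t ht htT x hx y hy
      have h1 := hA0 x hx y hy
      change |(A0 x y : ℝ) / Q - G x y| ≤ 4 ^ 0 / (2 ^ b) ^ t * G x y
      rw [h1, mul_comm, mul_div_assoc, div_self hQr.ne', mul_one, sub_self, abs_zero]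
      have := hG x hx y hy
      exact mul_nonneg (by positivity) (hμ.le.trans this)
  | succ l ih =>
      intro hl t ht htT x hx y hy
      have hle : t0 b l ≤ t0 b (l + 1) := t0_mono (Nat.le_succ l)
      have ht0 : t0 b l ≤ t := hle.trans ht
      have ih' := fun i h1 h2 => ih (by omega) i h1 (le_trans h2 htT)
      -- matrices over `Fin N`
      let M : Fin N → Fin N → ℝ := fun x y => sqr N G l x y
      let M2 : Fin N → Fin N → ℝ := fun x y => sqr N G (l + 1) x y
      let A : ℕ → Fin N → Fin N → ℤ := fun i x y => (AA b Q J apx A0 l i x y : ℤ)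
      have hM : ∀ x y, 0 ≤ M x y := fun x y => hμ.le.trans ((hF l).1 x x.2 y y.2)
      have hM2 : ∀ x y, M2 x y = ∑ k, M x k * M k y := by
        intro x y
        change ∑ k ∈ range N, sqr N G l x k * sqr N G l k y = _
        rw [Finset.sum_range]
      have hc0 : (0 : ℝ) < 4 ^ l := by positivity
      have h1 : (4 : ℝ) ^ l / (2 ^ b) ^ t0 b l ≤ 1 / 2 := by
        rw [div_le_iff₀ (by positivity)]
        have := pow_t0_ge hb l
        change 2 * (4 : ℝ) ^ l ≤ ((2 : ℝ) ^ b) ^ t0 b l at this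
        linarith
      have h2 : ((2 : ℝ) ^ b) ^ t0 b l ≤ 4 ^ l * 2 ^ b := pow_t0_le b l
      have ha : ∀ i, t0 b l ≤ i → i ≤ t → ∀ x y : Fin N,
          |(A i x y : ℝ) / Q - M x y| ≤ 4 ^ l / (2 ^ b) ^ i * M x y := by
        intro i h3 h4 x y
        have := ih' i h3 h4 x x.2 y y.2
        simpa [A, M] using this
      have hBt : 9 / 2 * ((t : ℝ) + 1) ^ 2 ≤ 2 ^ b := by
        have h3 : (t : ℝ) ≤ tm := by exact_mod_cast htT
        have h4 : (0 : ℝ) ≤ t := Nat.cast_nonneg _
        nlinarith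
      have hdig : ∀ i (x y : Fin N), dig (t0 b l) A i x y = dif b l (AA b Q J apx A0 l) i x y :=
        fun i x y => rfl
      -- size of the digits
      have hsz : ∀ i, t0 b l ≤ i → i ≤ t → ∀ x y : Fin N,
          |(dif b l (AA b Q J apx A0 l) i x y : ℝ)| ≤ 2 * Q := by
        have hA1 : ∀ i, t0 b l ≤ i → i ≤ t → ∀ x y : Fin N,
            (AA b Q J apx A0 l i x y : ℝ) ≤ 2 * Q := by
          intro i h3 h4 x y
          have h5 := ha i h3 h4 x y
          have h6 : (4 : ℝ) ^ l / (2 ^ b) ^ i ≤ 1 / 2 := by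
            refine le_trans ?_ h1
            gcongr
            linarith
          have h7 : M x y ≤ 1 := hle1 l x y x.2 y.2
          have h8 := hM x y
          have h9 := (abs_le.1 h5).2
          have h10 : (A i x y : ℝ) / Q ≤ 2 := by nlinarith
          rw [div_le_iff₀ hQr] at h10
          simpa [A] using h10
        intro i h3 h4 x y
        unfold dif
        have h5 := hA1 i h3 h4 x y
        have h6 : (0 : ℝ) ≤ AA b Q J apx A0 l i x y := Nat.cast_nonneg _
        split_ifs with h7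
        · push_cast
          rw [abs_of_nonneg h6]
          exact h5
        · have h8 := hA1 (i - 1) (by omega) (by omega) x y
          have h9 : (0 : ℝ) ≤ AA b Q J apx A0 l (i - 1) x y := Nat.cast_nonneg _
          push_cast
          rw [abs_le]
          constructor <;> linarith
      have hprd : ∀ sg i j, t0 b l ≤ i → i ≤ t → t0 b l ≤ j → j ≤ t → ∀ x y : Fin N,
          ∀ k < N, prd b l (AA b Q J apx A0 l) sg i j x y k ≤ 4 * Q ^ 2 := by
        intro sg i j h3 h4 h5 h6 x y k hk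
        have h7 := hsz i h3 h4 x ⟨k, hk⟩
        have h8 := hsz j h5 h6 ⟨k, hk⟩ y
        simp only at h7 h8
        have h9 : |(dif b l (AA b Q J apx A0 l) i x k : ℝ) *
            (dif b l (AA b Q J apx A0 l) j k y : ℝ)| ≤ 4 * Q ^ 2 := by
          rw [abs_mul]
          calc _ ≤ (2 * (Q : ℝ)) * (2 * Q) := by gcongr
            _ = _ := by ring
        have h10 : |dif b l (AA b Q J apx A0 l) i x k * dif b l (AA b Q J apx A0 l) j k y| ≤
            ((4 * Q ^ 2 : ℕ) : ℤ) := by
          have : ((|dif b l (AA b Q J apx A0 l) i x k * dif b l (AA b Q J apx A0 l) j k y| : ℤ) :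
            ℝ) ≤ (((4 * Q ^ 2 : ℕ) : ℤ) : ℝ) := by
            push_cast
            exact h9
          exact_mod_cast this
        have h11 := abs_le.1 h10
        unfold prd
        split_ifs <;> omega
      -- the estimates
      set AAl := AA b Q J apx A0 l with hAAl
      let p : ℕ → ℕ → ℕ := fun i j => pva b apx l t AAl 0 x y i j
      let q : ℕ → ℕ → ℕ := fun i j => pva b apx l t AAl 1 x y i j
      have hest : ∀ sg i j, t0 b l ≤ i → i ≤ t → t0 b l ≤ j → j ≤ t →
          i + j ≤ t + t0 b l + 2 →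
          (1 - 2 / ((2 : ℝ) ^ b) ^ (t + t0 b l + 3 - i - j)) *
            ((∑ k ∈ range N, prd b l AAl sg i j x y k : ℕ) : ℝ) ≤ pva b apx l t AAl sg x y i j ∧
          pva b apx l t AAl sg x y i j ≤ ∑ k ∈ range N, prd b l AAl sg i j x y k := by
        intro sg i j h3 h4 h5 h6 h7
        have hok : okp b l t i j := ⟨h3, h4, h5, h6, h7⟩
        have hprc : prc b l t i j = t + t0 b l + 3 - i - j := by unfold prc; omega
        have hp1 : 1 ≤ prc b l t i j := by rw [hprc]; omega
        have hp2 : prc b l t i j ≤ tm + 3 := by rw [hprc]; omega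
        have h8 := hapx (prc b l t i j) (fun k => prd b l AAl sg i j x y k) hp1 hp2
          (fun k hk => hprd sg i j h3 h4 h5 h6 ⟨x, hx⟩ ⟨y, hy⟩ k hk)
        have hpv : pva b apx l t AAl sg x y i j =
            apx (prc b l t i j) (fun k => prd b l AAl sg i j x y k) := by
          unfold pva; rw [if_pos hok]
        rw [hpv, ← hprc]
        refine ⟨?_, h8.1⟩
        have h9 : ((∑ k ∈ range N, prd b l AAl sg i j x y k : ℕ) : ℝ) *
            ((2 : ℝ) ^ b) ^ prc b l t i j ≤
            (apx (prc b l t i j) (fun k => prd b l AAl sg i j x y k) : ℝ) *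
              ((2 : ℝ) ^ b) ^ prc b l t i j +
            2 * ((∑ k ∈ range N, prd b l AAl sg i j x y k : ℕ) : ℝ) := by
          exact_mod_cast h8.2
        have h10 : (0 : ℝ) < ((2 : ℝ) ^ b) ^ prc b l t i j := by positivity
        rw [sub_mul, one_mul, sub_le_iff_le_add, ← sub_le_iff_le_add', div_mul_eq_mul_div,
          le_div_iff₀ h10]
        linarith
      have hpos : ∀ i j, posZ (dig (t0 b l) A) i j ⟨x, hx⟩ ⟨y, hy⟩ =
          ((∑ k ∈ range N, prd b l AAl 0 i j x y k : ℕ) : ℤ) := by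
        intro i j
        unfold posZ
        rw [Finset.sum_range]
        push_cast
        refine sum_congr rfl fun k _ => ?_
        rw [hdig, hdig]
        unfold prd
        rw [if_pos rfl, Int.toNat_eq_max]
      have hneg : ∀ i j, negZ (dig (t0 b l) A) i j ⟨x, hx⟩ ⟨y, hy⟩ =
          ((∑ k ∈ range N, prd b l AAl 1 i j x y k : ℕ) : ℤ) := by
        intro i j
        unfold negZ
        rw [Finset.sum_range]
        push_cast
        refine sum_congr rfl fun k _ => ?_
        rw [hdig, hdig]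
        unfold prd
        rw [if_neg one_ne_zero, Int.toNat_eq_max]
      have hW := stepW hM hM2 (A := A) ht0 hB2 hc0 h1 h2 hQ0 ha hBt ⟨x, hx⟩ ⟨y, hy⟩
        (fun i j => (p i j : ℤ)) (fun i j => (q i j : ℤ))
        (by
          intro i j h3 h4 h5 h6 h7
          obtain ⟨h8, h9⟩ := hest 0 i j h3 h4 h5 h6 h7
          rw [hpos]
          exact ⟨by exact_mod_cast h8, by exact_mod_cast h9⟩)
        (by
          intro i j h3 h4 h5 h6 h7
          obtain ⟨h8, h9⟩ := hest 1 i j h3 h4 h5 h6 h7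
          rw [hneg]
          exact ⟨by exact_mod_cast h8, by exact_mod_cast h9⟩)
      -- the sums over `range J`
      have hsum : ∀ sg, ((∑ i ∈ range J, ∑ j ∈ range J, pva b apx l t AAl sg x y i j : ℕ) : ℤ) =
          ∑ i ∈ Icc (t0 b l) t, ∑ j ∈ Icc (t0 b l) t,
            (if i + j ≤ t + t0 b l + 2 then (pva b apx l t AAl sg x y i j : ℤ) else 0) := by
        intro sg
        have htJ : t < J := lt_of_le_of_lt htT hJ
        rw [← sum_Icc_range htJ]
        push_cast
        refine sum_congr rfl fun i _ => ?_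
        split_ifs with h3
        · rw [← sum_Icc_range htJ]
          refine sum_congr rfl fun j _ => ?_
          split_ifs with h4 h5
          · rfl
          · unfold pva
            rw [if_neg (fun h => h5 h.2.2.2.2)]
            rfl
          · unfold pva
            rw [if_neg (fun h => h4 ⟨h.2.2.1, h.2.2.2.1⟩)]
            rfl
        · refine sum_eq_zero fun j _ => ?_
          unfold pva
          rw [if_neg (fun h => h3 ⟨h.1, h.2.1⟩)]
          rfl
      set Ps := ∑ i ∈ range J, ∑ j ∈ range J, pva b apx l t AAl 0 x y i j with hPs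
      set Ng := ∑ i ∈ range J, ∑ j ∈ range J, pva b apx l t AAl 1 x y i j with hNg
      have hWe : (∑ i ∈ Icc (t0 b l) t, ∑ j ∈ Icc (t0 b l) t,
          (if i + j ≤ t + t0 b l + 2 then (p i j : ℤ) - (q i j : ℤ) else 0)) =
          (Ps : ℤ) - Ng := by
        rw [hPs, hNg, hsum 0, hsum 1, ← sum_sub_distrib]
        refine sum_congr rfl fun i _ => ?_
        rw [← sum_sub_distrib]
        refine sum_congr rfl fun j _ => ?_
        split_ifs
        · rfl
        · simp
      rw [hWe] at hW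
      have hM2p : μ ≤ M2 ⟨x, hx⟩ ⟨y, hy⟩ := (hF (l + 1)).1 x hx y hy
      have hc4 : (4 : ℝ) * (4 ^ l / (2 ^ b) ^ t) ≤ 1 / 2 := by
        have h3 := pow_t0_ge hb (l + 1)
        change 2 * (4 : ℝ) ^ (l + 1) ≤ ((2 : ℝ) ^ b) ^ t0 b (l + 1) at h3
        have h4 : ((2 : ℝ) ^ b) ^ t0 b (l + 1) ≤ (2 ^ b) ^ t :=
          pow_le_pow_right₀ (by linarith) ht
        rw [← mul_div_assoc, div_le_iff₀ (by positivity)]
        rw [pow_succ] at h3
        linarith
      have hNP : Ng ≤ Ps := by
        by_contra hcon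
        have h3 : ((Ps : ℤ) - Ng : ℤ) < 0 := by omega
        have h4 : (((Ps : ℤ) - Ng : ℤ) : ℝ) / Q ^ 2 < 0 := by
          apply div_neg_of_neg_of_pos (by exact_mod_cast h3) (by positivity)
        have h5 := (abs_le.1 hW).1
        nlinarith
      have hAA : ((AA b Q J apx A0 (l + 1) t x y : ℕ) : ℝ) = ((((Ps : ℤ) - Ng) / (Q : ℤ) : ℤ) :
          ℝ) := by
        have h3 : ((AA b Q J apx A0 (l + 1) t x y : ℕ) : ℤ) = ((Ps : ℤ) - Ng) / (Q : ℤ) := by
          change (((Ps - Ng) / Q : ℕ) : ℤ) = _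
          push_cast [Nat.cast_sub hNP]
          rfl
        exact_mod_cast h3
      have hround := round_le hQ0 (M2 := M2) (e := 4 ^ l / (2 ^ b) ^ t) ⟨x, hx⟩ ⟨y, hy⟩
        ((Ps : ℤ) - Ng) hW (by
          have h4 : (1 : ℝ) ≤ 4 ^ l := one_le_pow₀ (by norm_num)
          have h5 : ((2 : ℝ) ^ b) ^ t ≤ ((2 : ℝ) ^ b) ^ tm :=
            pow_le_pow_right₀ (by linarith) htT
          have h7 : 1 / ((2 : ℝ) ^ b) ^ tm ≤ 4 ^ l / ((2 : ℝ) ^ b) ^ t := by gcongr
          calc (2 : ℝ) = 2 * ((2 : ℝ) ^ b) ^ tm * (1 / ((2 : ℝ) ^ b) ^ tm) := by field_simp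
            _ ≤ Q * μ * (4 ^ l / ((2 : ℝ) ^ b) ^ t) := by gcongr
            _ ≤ Q * M2 ⟨x, hx⟩ ⟨y, hy⟩ * (4 ^ l / ((2 : ℝ) ^ b) ^ t) := by gcongr
            _ = Q * (4 ^ l / ((2 : ℝ) ^ b) ^ t) * M2 ⟨x, hx⟩ ⟨y, hy⟩ := by ring)
      rw [hAA]
      have h8 : (4 : ℝ) ^ (l + 1) / (2 ^ b) ^ t = 4 * (4 ^ l / (2 ^ b) ^ t) := by
        rw [pow_succ]; ring
      rw [h8]
      exact hround

end Vale.Agent.P313.AC
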